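import Vale.Agent.N302.Hard

namespace Vale.Agent.Results.P302.A0ThreePartition

open Vale.Agent.P302 Vale.Agent.P302H Vale.Agent.N302 Vale.Agent.Lib.NP

/-- Gaps `OPT - LP` for the proper relaxation and for distinct sizes arbitrarily close to `1/3`:
the gap grows at least like `sqrt (log OPT / log log OPT) / K` for every `K > 8`; the same holds
for bin covering with `K > 16` (the modified integer round-down property fails); and it is
NP-hard to tell such instances without a gap from instances with a gap larger than `c`. -/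
theorem result :
    (∀ c : ℕ, 2 ≤ c → ∀ ε : ℚ, 0 < ε → ∃ (N : ℕ) (a : Fin (3 * N) → ℚ),
      Function.Injective a ∧ Near ε a ∧ LP a = N ∧ LPp a = N ∧
        3 * N ≤ c ^ (1800 * c ^ 2) ∧ N + c < OPT a) ∧
    (∀ K : ℝ, 8 < K → ∃ m₀ : ℕ, ∀ m ≥ m₀, ∀ ε : ℚ, 0 < ε → ∃ (N : ℕ) (a : Fin (3 * N) → ℚ),
      Function.Injective a ∧ Near ε a ∧ LP a = N ∧ LPp a = N ∧ OPT a = m ∧
        √(Real.log m / Real.log (Real.log m)) / K < (OPT a : ℝ) - LP a) ∧
    (¬ ∀ (n : ℕ) (a : Fin n → ℚ), IsInstance a → ⌊LPc a⌋ - 1 ≤ (COV a : ℤ)) ∧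
    (∀ K : ℝ, 16 < K → ∃ m₀ : ℕ, ∀ m ≥ m₀, ∀ ε : ℚ, 0 < ε → ∃ (N : ℕ) (a : Fin (3 * N) → ℚ),
      Function.Injective a ∧ Near ε a ∧ LPc a = N ∧ COV a = m ∧
        √(Real.log m / Real.log (Real.log m)) / K < LPc a - (COV a : ℝ)) ∧
    ∀ (c : ℕ) (ε : ℚ), 0 < ε →
      NPHard sizesW
        (fun L => Near ε L.get ∧ 3 * LP L.get = L.length ∧ LPp L.get = LP L.get ∧
          (OPT L.get : ℝ) = LP L.get)
        (fun L => Near ε L.get ∧ 3 * LP L.get = L.length ∧ LPp L.get = LP L.get ∧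
          LP L.get + c < OPT L.get) ∧
      NPHard sizesW
        (fun L => Near ε L.get ∧ 3 * LPc L.get = L.length ∧ (COV L.get : ℝ) = LPc L.get)
        (fun L => Near ε L.get ∧ 3 * LPc L.get = L.length ∧ (COV L.get : ℝ) + c < LPc L.get) ∧
      (Approx (fun L => COV L.get) ε c → ∀ L, InNP L → InP L) := by
  refine ⟨fun _ hc _ hε => pack_size hc hε, fun _ => pack_rate, fun h => ?_,
    fun _ => cover_rate, fun c _ hε => ⟨pack_hard c hε, cover_hard c hε, fun h _ hL =>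
      cover_approx hε h hL⟩⟩
  obtain ⟨N, a, h1, h2, h3⟩ := cover_gap
  have := h _ a fun i => ⟨by linarith [(h1 i).1], by linarith [(h1 i).2.1]⟩
  rw [h2, Int.floor_natCast] at this
  omega

end Vale.Agent.Results.P302.A0ThreePartition
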